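import Crest.Agent.R115.Kernel

/-!
Labelled graphs: finite invariant pieces in which most vertices have only short label-matching
paths towards any prescribed finite set of vertices.
-/

set_option autoImplicit false

open scoped Classical

namespace Crest.Agent.R115

/-- A finite nonempty set with involutions on which short reduced words act freely. -/
structure FreeSys (I : Type) (L : ℕ) where
  X : Type
  fin : Fintype X
  ne : Nonempty X
  ρ : I → X → X
  inv : ∀ k g, ρ k (ρ k g) = g
  free : ∀ g w, Red w → w ≠ [] → w.length ≤ L → run ρ g w ≠ g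

/-- A choice of such a set. -/
noncomputable def freeSys (I : Type) [Finite I] (L : ℕ) : FreeSys I L :=
  Classical.choice (by
    obtain ⟨X, h1, h2, ρ, h3, h4⟩ := exists_free I L
    exact ⟨⟨X, h1, h2, ρ, h3, h4⟩⟩)

variable (I : Type) [Fintype I]

noncomputable instance instFintypeFreeSysX (L : ℕ) : Fintype (freeSys I L).X := (freeSys I L).fin
instance instNonemptyFreeSysX (L : ℕ) : Nonempty (freeSys I L).X := (freeSys I L).ne

/-- The vertices of level `L`. -/
abbrev VV (m L : ℕ) : Type :=
  (freeSys I m).X × (freeSys I L).X × ((freeSys I L).X → I × Bool)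

/-- All vertices. -/
abbrev VA (m : ℕ) : Type := Σ L : ℕ, VV I m L

variable {I}

/-- The involutions. -/
noncomputable def sg (m : ℕ) (i : I) (x : VA I m) : VA I m :=
  ⟨x.1, (freeSys I m).ρ i x.2.1, (freeSys I x.1).ρ i x.2.2.1, x.2.2.2⟩

/-- The labels. -/
noncomputable def lb (m : ℕ) (x : VA I m) : (freeSys I m).X × (I × Bool) :=
  (x.2.1, x.2.2.2 x.2.2.1)

lemma run_sg (m : ℕ) (w : List I) (x : VA I m) :
    run (sg m) x w =
      ⟨x.1, run (freeSys I m).ρ x.2.1 w, run (freeSys I x.1).ρ x.2.2.1 w, x.2.2.2⟩ := by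
  induction w generalizing x with
  | nil => rfl
  | cons i w ih => rw [run_cons, ih]; rfl

lemma sys_sg (R : ℕ) : Sys (sg (I := I) (2 * R + 4)) (lb (2 * R + 4)) R where
  inv i y := by
    obtain ⟨L, c, ξ, ω⟩ := y
    simp [sg, FreeSys.inv]
  free y w hw h0 hL h := by
    rw [run_sg] at h
    exact (freeSys I _).free y.2.1 w hw h0 hL (congrArg Prod.fst h)

omit [Fintype I] in
lemma take_inj {L : ℕ} (F : FreeSys I L) (ξ : F.X) (w : List I) (hw : Red w)
    (hL : w.length = L) : Function.Injective fun i : Fin L => run F.ρ ξ (w.take i) := by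
  have key : ∀ i j : Fin L, i < j → run F.ρ ξ (w.take i) ≠ run F.ρ ξ (w.take j) := by
    intro i j hij h
    have hij' : (i : ℕ) < j := hij
    have hj := j.2
    have e : w.take j = w.take i ++ (w.take j).drop i := by
      conv_lhs => rw [← List.take_append_drop i (w.take j)]
      rw [List.take_take, min_eq_left hij'.le]
    have hr : Red (w.take j) := by
      rw [← List.take_append_drop j w] at hw
      exact hw.left
    rw [e] at hr h
    rw [run_append] at h
    refine F.free _ _ hr.right ?_ ?_ h.symm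
    · intro h0
      have := congrArg List.length h0
      simp at this
      omega
    · simp; omega
  intro i j h
  rcases lt_trichotomy i j with hij | hij | hij
  · exact absurd h (key i j hij)
  · exact hij
  · exact absurd h.symm (key j i hij)

lemma card_match (m L : ℕ) (u : VA I m) (w : List I) (hw : Red w) (hL : w.length = L) :
    (Finset.univ.filter fun x : VV I m L => Mt (sg m) (lb m) ⟨L, x⟩ u w).card
      * (2 * Fintype.card I) ^ L ≤ Fintype.card (VV I m L) := by
  let e : (freeSys I L).X → Fin L → (freeSys I L).X :=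
    fun ξ i => run (freeSys I L).ρ ξ (w.take i)
  have he : ∀ ξ, Function.Injective (e ξ) := fun ξ => take_inj _ ξ w hw hL
  let f : {x : VV I m L // Mt (sg m) (lb m) ⟨L, x⟩ u w} × (Fin L → I × Bool) → VV I m L :=
    fun z => (z.1.1.1, z.1.1.2.1, Function.extend (e z.1.1.2.1) z.2 z.1.1.2.2)
  have hf : Function.Injective f := by
    rintro ⟨⟨⟨c, ξ, ω⟩, h⟩, t⟩ ⟨⟨⟨c', ξ', ω'⟩, h'⟩, t'⟩ hz
    simp only [f, Prod.mk.injEq] at hz
    obtain ⟨rfl, rfl, hz⟩ := hz
    have ht : t = t' := by
      funext i
      have := congrFun hz (e ξ i)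
      rwa [(he ξ).extend_apply, (he ξ).extend_apply] at this
    have hω : ω = ω' := by
      funext a
      by_cases ha : ∃ i, e ξ i = a
      · obtain ⟨i, rfl⟩ := ha
        have h1 := h (w.take i) (List.take_prefix _ _)
        have h2 := h' (w.take i) (List.take_prefix _ _)
        rw [← h2, run_sg, run_sg] at h1
        exact congrArg Prod.snd h1
      · have := congrFun hz a
        rwa [Function.extend_apply' _ _ _ ha, Function.extend_apply' _ _ _ ha] at this
    subst ht hω
    rfl
  have := Fintype.card_le_of_injective f hf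
  rw [Fintype.card_prod, Fintype.card_subtype] at this
  simpa [mul_comm] using this

theorem exists_graphs (I : Type) [Fintype I] [Nonempty I] (R : ℕ) :
    ∃ (V Lab : Type) (_ : Countable V) (_ : Infinite V) (_ : Fintype Lab)
      (σ : I → V → V) (lab : V → Lab), Sys σ lab R ∧
      ∀ (s : Finset V) (β : ℝ), 0 < β → ∃ Y B : Finset V, Y.Nonempty ∧
        (∀ i, ∀ y ∈ Y, σ i y ∈ Y) ∧ (B.card : ℝ) ≤ β * Y.card ∧
        ∀ x ∈ Y, x ∉ B → ∀ y ∈ s, ∀ u n, Near σ u y n → lab u = lab x → Tame σ lab x u := by
  let m := 2 * R + 4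
  refine ⟨VA I m, _, inferInstance, ?_, inferInstance, sg m, lb m, sys_sg R, fun s β hβ => ?_⟩
  · refine Infinite.of_surjective Sigma.fst fun L => ⟨⟨L, Classical.arbitrary _⟩, rfl⟩
  let J := s.sup Sigma.fst
  let U : Finset (VA I m) := (Finset.range (J + 1)).sigma fun _ => Finset.univ
  obtain ⟨L, hL⟩ : ∃ L : ℕ, (U.card : ℝ) / β < 2 ^ L := pow_unbounded_of_one_lt _ one_lt_two
  let Wds : Finset (List I) :=
    (Finset.univ.image fun f : Fin L → I => List.ofFn f).filter fun w => Red w ∧ w.length = L
  have hW : Wds.card ≤ Fintype.card I ^ L := by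
    refine (Finset.card_filter_le _ _).trans (Finset.card_image_le.trans ?_)
    simp
  let B₀ : Finset (VV I m L) := (U ×ˢ Wds).biUnion fun z =>
    Finset.univ.filter fun x : VV I m L => Mt (sg m) (lb m) ⟨L, x⟩ z.1 z.2
  have hB₀ : B₀.card * (2 * Fintype.card I) ^ L ≤
      U.card * Fintype.card I ^ L * Fintype.card (VV I m L) := by
    refine (Nat.mul_le_mul_right _ Finset.card_biUnion_le).trans ?_
    rw [Finset.sum_mul]
    refine (Finset.sum_le_card_nsmul _ _ (Fintype.card (VV I m L)) fun z hz => ?_).trans ?_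
    · have := (Finset.mem_filter.1 (Finset.mem_product.1 hz).2).2
      exact card_match m L z.1 z.2 this.1 this.2
    · rw [smul_eq_mul, Finset.card_product]
      gcongr
  have hI : 0 < Fintype.card I := Fintype.card_pos
  have hB₁ : B₀.card * 2 ^ L ≤ U.card * Fintype.card (VV I m L) := by
    rw [mul_pow, ← mul_assoc, mul_right_comm U.card] at hB₀
    exact Nat.le_of_mul_le_mul_right hB₀ (by positivity)
  refine ⟨Finset.univ.map (Function.Embedding.sigmaMk L), B₀.map (Function.Embedding.sigmaMk L),
    by simp, ?_, ?_, ?_⟩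
  · intro i y hy
    obtain ⟨x, -, rfl⟩ := Finset.mem_map.1 hy
    exact Finset.mem_map.2 ⟨_, Finset.mem_univ _, rfl⟩
  · rw [Finset.card_map, Finset.card_map, Finset.card_univ]
    have h1 : (B₀.card : ℝ) * 2 ^ L ≤ U.card * Fintype.card (VV I m L) := by exact_mod_cast hB₁
    rw [div_lt_iff₀ hβ] at hL
    have h2 : (0 : ℝ) < 2 ^ L := by positivity
    have h3 : (0 : ℝ) ≤ Fintype.card (VV I m L) := by positivity
    have h4 : (U.card : ℝ) * Fintype.card (VV I m L) ≤ 2 ^ L * β * Fintype.card (VV I m L) :=
      mul_le_mul_of_nonneg_right hL.le h3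
    have : (B₀.card : ℝ) * 2 ^ L ≤ (β * Fintype.card (VV I m L)) * 2 ^ L := by linarith
    exact le_of_mul_le_mul_right this h2
  · intro x hx hxB y hy u n hu _
    obtain ⟨x, -, rfl⟩ := Finset.mem_map.1 hx
    refine ⟨L, fun w hw hm => ?_⟩
    by_contra hlen
    push Not at hlen
    refine hxB (Finset.mem_map.2 ⟨x, ?_, rfl⟩)
    refine Finset.mem_biUnion.2 ⟨(u, w.take L), Finset.mem_product.2 ⟨?_, ?_⟩, ?_⟩
    · obtain ⟨w', -, e⟩ := hu
      have h1 : y.1 = u.1 := by rw [← e, run_sg]
      have h2 : y.1 ≤ J := Finset.le_sup (f := Sigma.fst) hy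
      simp only [U, Finset.mem_sigma, Finset.mem_range, Finset.mem_univ, and_true]
      omega
    · have hl : (w.take L).length = L := by simp [hlen]
      refine Finset.mem_filter.2 ⟨Finset.mem_image.2 ?_, ?_, hl⟩
      · generalize w.take L = w' at hl
        subst hl
        exact ⟨w'.get, Finset.mem_univ _, List.ofFn_get w'⟩
      · rw [← List.take_append_drop L w] at hw
        exact hw.left
    · refine Finset.mem_filter.2 ⟨Finset.mem_univ _, fun w' hw' => ?_⟩
      exact hm w' (hw'.trans (List.take_prefix _ _))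

end Crest.Agent.R115
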