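import Crest.Prelude.Def_LipschitzFree

/-!
General facts on the free space of a pointed metric space: point evaluations, functionals coming
from Lipschitz functions, linearisations of Lipschitz self-maps, nets of finitely supported
molecules in compact sets, and a criterion for the approximation property.
-/

set_option autoImplicit false

open Crest.AnalysisR

namespace Crest.Agent.R115

attribute [local instance] PointedMetric.metric

variable {P : PointedMetric}

/-- The molecule of a point. -/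
noncomputable def mol (P : PointedMetric) (p : P.M) : P.Mol := (Finsupp.single p (1 : ℝ) : P.M →₀ ℝ)

/-- The point evaluation in the free space. -/
noncomputable def dl (P : PointedMetric) (p : P.M) : P.FreeSpace := ((mol P p : P.Mol) : P.FreeSpace)

lemma norm_mol (a : P.Mol) : ‖a‖ = P.freeNorm a := rfl

lemma pairing_mol (p : P.M) (f : P.M → ℝ) : P.pairing (mol P p) f = f p := by
  unfold PointedMetric.pairing mol PointedMetric.coeffs
  rw [Finsupp.sum_single_index] <;> simp

lemma pairing_sub (a b : P.Mol) (f : P.M → ℝ) :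
    P.pairing (a - b) f = P.pairing a f - P.pairing b f := by
  rw [sub_eq_add_neg, P.pairing_add, P.pairing_neg]; ring

lemma pairing_le_norm (a : P.Mol) (f : P.M → ℝ) (hf : ∀ p q, |f p - f q| ≤ dist p q)
    (h0 : f P.base = 0) : |P.pairing a f| ≤ ‖a‖ := by
  have hl : LipschitzWith 1 f := by
    refine LipschitzWith.of_dist_le_mul fun p q => ?_
    simpa [Real.dist_eq] using hf p q
  exact le_ciSup (P.freeNorm_bddAbove a) (⟨f, hl, h0⟩ : P.Lip1)

lemma pairing_smul_right (a : P.Mol) (c : ℝ) (f : P.M → ℝ) :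
    P.pairing a (fun p => c * f p) = c * P.pairing a f := by
  unfold PointedMetric.pairing
  rw [Finsupp.mul_sum]
  exact Finsupp.sum_congr fun _ _ => by ring

lemma pairing_le (a : P.Mol) (f : P.M → ℝ) (K : ℝ) (hK : 0 ≤ K)
    (hf : ∀ p q, |f p - f q| ≤ K * dist p q) (h0 : f P.base = 0) :
    |P.pairing a f| ≤ K * ‖a‖ := by
  rcases hK.eq_or_lt with rfl | hK
  · have : f = fun p => 0 * f p := by
      funext p
      have := hf p P.base
      rw [h0] at this
      simpa using this
    rw [this, pairing_smul_right]; simp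
  · have h := pairing_le_norm a (fun p => K⁻¹ * f p) (fun p q => by
      rw [← mul_sub, abs_mul, abs_of_pos (inv_pos.2 hK), inv_mul_le_iff₀ hK]
      exact hf p q) (by simp [h0])
    rw [pairing_smul_right, abs_mul, abs_of_pos (inv_pos.2 hK), inv_mul_le_iff₀ hK] at h
    exact h

lemma norm_le_of_pairing (a : P.Mol) (C : ℝ)
    (h : ∀ f : P.M → ℝ, (∀ p q, |f p - f q| ≤ dist p q) → f P.base = 0 → |P.pairing a f| ≤ C) :
    ‖a‖ ≤ C := by
  rw [norm_mol]
  refine ciSup_le fun f => h f.1 (fun p q => ?_) f.2.2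
  simpa [Real.dist_eq] using f.2.1.dist_le_mul p q

lemma norm_dl_sub (p q : P.M) : ‖dl P p - dl P q‖ ≤ dist p q := by
  unfold dl
  rw [← UniformSpace.Completion.coe_sub, UniformSpace.Completion.norm_coe]
  refine norm_le_of_pairing _ _ fun f hf _ => ?_
  rw [pairing_sub, pairing_mol, pairing_mol]
  exact hf p q

lemma dl_base : dl P P.base = 0 := by
  rw [← norm_le_zero_iff]
  unfold dl
  rw [UniformSpace.Completion.norm_coe]
  refine norm_le_of_pairing _ _ fun f _ h0 => ?_
  rw [pairing_mol, h0]; simp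

lemma mol_eq_sum (a : P.Mol) : a = ∑ p ∈ (P.coeffs a).support, (P.coeffs a p) • mol P p := by
  have h : (P.coeffs a) = ∑ p ∈ (P.coeffs a).support,
      (P.coeffs a p) • (Finsupp.single p (1 : ℝ) : P.M →₀ ℝ) := by
    conv_lhs => rw [← Finsupp.sum_single (P.coeffs a)]
    unfold Finsupp.sum
    refine Finset.sum_congr rfl fun p _ => ?_
    simp
  exact h

lemma coe_eq_sum (a : P.Mol) :
    (a : P.FreeSpace) = ∑ p ∈ (P.coeffs a).support, (P.coeffs a p) • dl P p := by
  have h := congrArg (UniformSpace.Completion.toComplL : P.Mol →L[ℝ] P.FreeSpace) (mol_eq_sum a)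
  rw [map_sum] at h
  simp only [map_smul, UniformSpace.Completion.coe_toComplL] at h
  exact h

lemma clm_coe {E : Type*} [NormedAddCommGroup E] [NormedSpace ℝ E] (T : P.FreeSpace →L[ℝ] E)
    (a : P.Mol) : T (a : P.FreeSpace) = ∑ p ∈ (P.coeffs a).support, (P.coeffs a p) • T (dl P p) := by
  rw [coe_eq_sum a, map_sum]
  simp only [map_smul]

/-- A functional is bounded by the Lipschitz constant of its values on the points. -/
lemma abs_le_of_lip (φ : P.FreeSpace →L[ℝ] ℝ) (K : ℝ) (hK : 0 ≤ K)
    (h : ∀ p q, |φ (dl P p) - φ (dl P q)| ≤ K * dist p q) (γ : P.FreeSpace) :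
    |φ γ| ≤ K * ‖γ‖ := by
  induction γ using UniformSpace.Completion.induction_on with
  | hp => exact isClosed_le (by fun_prop) (by fun_prop)
  | ih a =>
    rw [UniformSpace.Completion.norm_coe]
    have := pairing_le a (fun p => φ (dl P p)) K hK h (by simp [dl_base])
    convert this using 2
    rw [clm_coe]
    rfl

/-- A Lipschitz function gives a functional. -/
lemma exists_functional (f : P.M → ℝ) (K : ℝ) (hK : 0 ≤ K)
    (hf : ∀ p q, |f p - f q| ≤ K * dist p q) :
    ∃ φ : P.FreeSpace →L[ℝ] ℝ, ∀ p, φ (dl P p) = f p - f P.base := by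
  let g : P.M → ℝ := fun p => f p - f P.base
  let l : P.Mol →ₗ[ℝ] ℝ :=
    { toFun := fun a => P.pairing a g
      map_add' := fun a b => P.pairing_add a b g
      map_smul' := fun c a => P.pairing_smul c a g }
  let l' : P.Mol →L[ℝ] ℝ := l.mkContinuous K fun a => by
    rw [Real.norm_eq_abs]
    exact pairing_le a g K hK (fun p q => by simpa [g] using hf p q) (by simp [g])
  refine ⟨l'.fromCompletion, fun p => ?_⟩
  unfold dl
  rw [ContinuousLinearMap.fromCompletion_apply_coe]
  exact pairing_mol p g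

/-- A Lipschitz base-point preserving self-map is linearised on the free space. -/
lemma exists_linearisation (r : P.M → P.M) (K : ℝ) (hK : 0 ≤ K)
    (hr : ∀ p q, dist (r p) (r q) ≤ K * dist p q) (h0 : r P.base = P.base) :
    ∃ T : P.FreeSpace →L[ℝ] P.FreeSpace, (∀ γ, ‖T γ‖ ≤ K * ‖γ‖) ∧ ∀ p, T (dl P p) = dl P (r p) := by
  let l : P.Mol →ₗ[ℝ] P.Mol := (Finsupp.lmapDomain ℝ ℝ r : (P.M →₀ ℝ) →ₗ[ℝ] (P.M →₀ ℝ))
  have hp : ∀ (a : P.Mol) (f : P.M → ℝ), P.pairing (l a) f = P.pairing a (fun p => f (r p)) := by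
    intro a f
    unfold PointedMetric.pairing
    exact Finsupp.sum_mapDomain_index (fun _ => by simp) (fun _ _ _ => by ring)
  have hl : ∀ a, ‖l a‖ ≤ K * ‖a‖ := by
    intro a
    refine norm_le_of_pairing _ _ fun f hf hf0 => ?_
    rw [hp]
    exact pairing_le a _ K hK (fun p q => (hf _ _).trans (hr p q)) (by simp [h0, hf0])
  let l' : P.Mol →L[ℝ] P.Mol := l.mkContinuous K hl
  refine ⟨l'.completion, fun γ => ?_, fun p => ?_⟩
  · induction γ using UniformSpace.Completion.induction_on with
    | hp => exact isClosed_le (by fun_prop) (by fun_prop)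
    | ih a =>
      rw [ContinuousLinearMap.completion_apply_coe, UniformSpace.Completion.norm_coe,
        UniformSpace.Completion.norm_coe]
      exact hl a
  · unfold dl
    rw [ContinuousLinearMap.completion_apply_coe]
    congr 1
    exact Finsupp.mapDomain_single

/-- A compact set is approximated by molecules supported in one finite set. -/
lemma exists_net (S : Set P.FreeSpace) (hS : IsCompact S) (η : ℝ) (hη : 0 < η) :
    ∃ s : Finset P.M, ∀ γ ∈ S, ∃ a : P.Mol, (P.coeffs a).support ⊆ s ∧ ‖γ - (a : P.FreeSpace)‖ ≤ η := by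
  classical
  have hcov : S ⊆ ⋃ a : P.Mol, Metric.ball (a : P.FreeSpace) η := by
    intro γ _
    obtain ⟨a, ha⟩ := Metric.denseRange_iff.1 UniformSpace.Completion.denseRange_coe γ η hη
    exact Set.mem_iUnion.2 ⟨a, ha⟩
  obtain ⟨t, ht⟩ := hS.elim_finite_subcover _ (fun a => Metric.isOpen_ball) hcov
  refine ⟨t.biUnion fun a => (P.coeffs a).support, fun γ hγ => ?_⟩
  obtain ⟨a, ha, hγa⟩ := Set.mem_iUnion₂.1 (ht hγ)
  refine ⟨a, Finset.subset_biUnion_of_mem (fun a => (P.coeffs a).support) ha, ?_⟩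
  rw [Metric.mem_ball, dist_eq_norm] at hγa
  exact hγa.le

/-- Two operators that agree on a finite set of points are close on a compact set that is close to
molecules supported there. -/
lemma close_of_agree {E : Type*} [NormedAddCommGroup E] [NormedSpace ℝ E]
    (T T' : P.FreeSpace →L[ℝ] E) (K K' : ℝ) (hK : 0 ≤ K) (hK' : 0 ≤ K')
    (hT : ∀ γ, ‖T γ‖ ≤ K * ‖γ‖) (hT' : ∀ γ, ‖T' γ‖ ≤ K' * ‖γ‖)
    (s : Finset P.M) (hs : ∀ p ∈ s, T (dl P p) = T' (dl P p)) (γ : P.FreeSpace) (a : P.Mol)
    (ha : (P.coeffs a).support ⊆ s) (η : ℝ) (hγ : ‖γ - (a : P.FreeSpace)‖ ≤ η) :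
    ‖T γ - T' γ‖ ≤ (K + K') * η := by
  have e : T a = T' a := by
    rw [clm_coe, clm_coe]
    exact Finset.sum_congr rfl fun p hp => by rw [hs p (ha hp)]
  have : T γ - T' γ = T (γ - a) - T' (γ - a) := by
    rw [map_sub, map_sub, e]; abel
  rw [this]
  refine (norm_sub_le _ _).trans ?_
  have h1 := (hT (γ - a)).trans (mul_le_mul_of_nonneg_left hγ hK)
  have h2 := (hT' (γ - a)).trans (mul_le_mul_of_nonneg_left hγ hK')
  linarith

lemma finiteDimensional_range (T : P.FreeSpace →L[ℝ] P.FreeSpace) (s : Finset P.M)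
    (h : ∀ p, T (dl P p) = 0 ∨ ∃ q ∈ s, T (dl P p) = dl P q) :
    FiniteDimensional ℝ (LinearMap.range T.toLinearMap) := by
  classical
  let W : Submodule ℝ P.FreeSpace := Submodule.span ℝ ((s.image (dl P) : Finset _) : Set _)
  have : FiniteDimensional ℝ W := FiniteDimensional.span_finset ℝ _
  have hW : IsClosed (W : Set P.FreeSpace) := W.closed_of_finiteDimensional
  have : LinearMap.range T.toLinearMap ≤ W := by
    rintro _ ⟨γ, rfl⟩
    change T γ ∈ W
    induction γ using UniformSpace.Completion.induction_on with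
    | hp => exact hW.preimage T.continuous
    | ih a =>
      rw [clm_coe]
      refine W.sum_mem fun p _ => W.smul_mem _ ?_
      rcases h p with h | ⟨q, hq, h⟩
      · rw [h]; exact W.zero_mem
      · rw [h]
        exact Submodule.subset_span (by simpa using ⟨q, hq, rfl⟩)
  exact Submodule.finiteDimensional_of_le this

/-- The approximation property for a uniformly discrete space exhausted by bounded retracts. -/
theorem hasAP_of_levels (lev : P.M → ℕ) (B : ℕ → ℝ) (hB : ∀ n, 0 ≤ B n)
    (hsep : ∀ p q : P.M, p ≠ q → 1 ≤ dist p q)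
    (hbd : ∀ n p, lev p ≤ n → dist p P.base ≤ B n)
    (hret : ∀ p q, lev p < lev q → dist p P.base ≤ dist p q) : HasAP P.FreeSpace := by
  classical
  intro S hS ε hε
  obtain ⟨s, hs⟩ := exists_net S hS (ε / 4) (by positivity)
  let n := s.sup lev
  let r : P.M → P.M := fun p => if lev p ≤ n then p else P.base
  have hr : ∀ p q, dist (r p) (r q) ≤ 1 * dist p q := by
    intro p q
    rw [one_mul]
    by_cases hp : lev p ≤ n <;> by_cases hq : lev q ≤ n <;> simp only [r, hp, hq, if_true, if_false]
    · exact le_rfl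
    · exact hret p q (by omega)
    · rw [dist_comm, dist_comm p q]; exact hret q p (by omega)
    · simp
  obtain ⟨T₁, hT₁, hT₁d⟩ := exists_linearisation r 1 zero_le_one hr (by simp [r])
  have hη : 0 < ε / (2 * (2 * B n + 1)) := by have := hB n; positivity
  obtain ⟨s', hs'⟩ := exists_net S hS _ hη
  let r' : P.M → P.M := fun p => if p ∈ s' ∧ lev p ≤ n then p else P.base
  have hr'b : ∀ p, dist (r' p) P.base ≤ B n := by
    intro p
    by_cases hp : p ∈ s' ∧ lev p ≤ n <;> simp only [r', hp, if_true, if_false, and_self]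
    · exact hbd n p hp.2
    · simpa using hB n
  have hr' : ∀ p q, dist (r' p) (r' q) ≤ (2 * B n) * dist p q := by
    intro p q
    by_cases hpq : p = q
    · subst hpq; simp
    · have h1 := hsep p q hpq
      have h2 := dist_triangle_right (r' p) (r' q) P.base
      have h3 := hr'b p
      have h4 := hr'b q
      have := hB n
      nlinarith
  obtain ⟨T₂, hT₂, hT₂d⟩ := exists_linearisation r' (2 * B n) (by have := hB n; positivity) hr'
    (by simp [r'])
  refine ⟨T₂, finiteDimensional_range T₂ s' fun p => ?_, fun γ hγ => ?_⟩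
  · rw [hT₂d]
    by_cases hp : p ∈ s' ∧ lev p ≤ n
    · right; exact ⟨p, hp.1, by simp only [r', hp, and_self, if_true]⟩
    · left; simp only [r', hp, if_false]; exact dl_base
  · obtain ⟨a, ha, hγa⟩ := hs γ hγ
    obtain ⟨a', ha', hγa'⟩ := hs' γ hγ
    have e1 := close_of_agree T₁ (ContinuousLinearMap.id ℝ _) 1 1 zero_le_one zero_le_one hT₁
      (fun γ => by simp) s (fun p hp => by
        rw [hT₁d]
        have : lev p ≤ n := Finset.le_sup (f := lev) hp
        simp [r, this]) γ a ha _ hγa
    have e2 := close_of_agree T₂ T₁ (2 * B n) 1 (by have := hB n; positivity) zero_le_one hT₂ hT₁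
      s' (fun p hp => by
        rw [hT₁d, hT₂d]
        simp [r, r', hp]) γ a' ha' _ hγa'
    have e3 : (2 * B n + 1) * (ε / (2 * (2 * B n + 1))) = ε / 2 := by
      have := hB n
      field_simp
    rw [e3] at e2
    simp only [ContinuousLinearMap.id_apply] at e1
    calc ‖T₂ γ - γ‖ ≤ ‖T₂ γ - T₁ γ‖ + ‖T₁ γ - γ‖ := norm_sub_le_norm_sub_add_norm_sub _ _ _
      _ ≤ ε := by linarith

/-- Functionals vanishing on a suitable finite set of points are small on the image of a ball
under a finite-rank operator. -/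
lemma exists_finset_small (T : P.FreeSpace →L[ℝ] P.FreeSpace)
    (hT : FiniteDimensional ℝ (LinearMap.range T.toLinearMap)) (ρ η : ℝ) (hη : 0 < η) :
    ∃ s : Finset P.M, ∀ (φ : P.FreeSpace →L[ℝ] ℝ) (K : ℝ), 0 ≤ K → (∀ γ, |φ γ| ≤ K * ‖γ‖) →
      (∀ p ∈ s, φ (dl P p) = 0) → ∀ γ, ‖γ‖ ≤ ρ → |φ (T γ)| ≤ K * η := by
  let W := LinearMap.range T.toLinearMap
  have : ProperSpace W := FiniteDimensional.proper ℝ W
  have hc : IsCompact (Subtype.val '' (Metric.closedBall (0 : W) (‖T‖ * ρ))) :=
    (isCompact_closedBall _ _).image continuous_subtype_val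
  obtain ⟨s, hs⟩ := exists_net _ hc η hη
  refine ⟨s, fun φ K hK hφ h0 γ hγ => ?_⟩
  obtain ⟨a, ha, hγa⟩ := hs (T γ) ⟨⟨T γ, γ, rfl⟩, by
    rw [mem_closedBall_zero_iff]
    exact (T.le_opNorm γ).trans (mul_le_mul_of_nonneg_left hγ (norm_nonneg _)), rfl⟩
  have := close_of_agree φ 0 K 0 hK le_rfl (fun γ => hφ γ) (fun γ => by simp) s
    (fun p hp => by simp [h0 p hp]) (T γ) a ha η hγa
  simpa using this

end Crest.Agent.R115
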