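import Crest.Agent.R115.Words

/-!
The kernel `WW`: for a labelled graph given by involutions, with labels injective at short range,
a bounded potential whose increments along an edge cancel the indicator of the colour of that edge,
and whose divergence is small wherever label-matching paths are of bounded length.
-/

set_option autoImplicit false

open scoped Classical

namespace Crest.Agent.R115

variable {I V Lab : Type*}

/-- `y` is reached from `u` by at most `n` steps. -/
def Near (σ : I → V → V) (u y : V) (n : ℕ) : Prop := ∃ w : List I, w.length ≤ n ∧ run σ u w = y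

/-- A bump of height `R` behind the edge `(u, k)`. -/
noncomputable def HH (σ : I → V → V) (R : ℕ) (u : V) (k : I) (y : V) : ℕ :=
  sSup {m | ∃ w : List I, Red (k :: w) ∧ run σ u (k :: w) = y ∧ m = R - w.length}

/-- The labels along `w` from `x` and from `u` agree. -/
def Mt (σ : I → V → V) (lab : V → Lab) (x u : V) (w : List I) : Prop :=
  ∀ w', w' <+: w → lab (run σ x w') = lab (run σ u w')

/-- The depth of the matching region on the side of `(x, u)` of the edge `k`. -/
noncomputable def AA (σ : I → V → V) (lab : V → Lab) (x u : V) (k : I) : ℕ :=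
  sSup {m | ∃ w : List I, Red (k :: w) ∧ Mt σ lab x u w ∧ w.length = m}

/-- Reduced matching paths from `(x, u)` have bounded length. -/
def Tame (σ : I → V → V) (lab : V → Lab) (x u : V) : Prop :=
  ∃ L : ℕ, ∀ w, Red w → Mt σ lab x u w → w.length < L

/-- The oriented bump. -/
noncomputable def ss (σ : I → V → V) (lab : V → Lab) (R : ℕ) (x : V) (k : I) (u y : V) : ℝ :=
  if AA σ lab (σ k x) (σ k u) k ≤ AA σ lab x u k then (HH σ R u k y : ℝ)
  else -(HH σ R (σ k u) k y : ℝ)

/-- The oriented bump on matching edges. -/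
noncomputable def ms (σ : I → V → V) (lab : V → Lab) (R : ℕ) (x : V) (k : I) (u y : V) : ℝ :=
  if lab (σ k u) = lab (σ k x) then ss σ lab R x k u y else 0

/-- The kernel. -/
noncomputable def WW (σ : I → V → V) (lab : V → Lab) (R : ℕ) (y x : V) (k : I) : ℝ :=
  if h : ∃ u, Near σ u y (R + 1) ∧ lab u = lab x then -ms σ lab R x k h.choose y else 0

/-- The colour of a directed edge. -/
def col (σ : I → V → V) (lab : V → Lab) (x : V) (k : I) : Lab × I × Lab :=
  (lab x, k, lab (σ k x))

/-- The standing hypotheses. -/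
structure Sys (σ : I → V → V) (lab : V → Lab) (R : ℕ) : Prop where
  inv : ∀ i y, σ i (σ i y) = y
  free : ∀ y w, Red w → w ≠ [] → w.length ≤ 2 * R + 4 → lab (run σ y w) ≠ lab y

variable {σ : I → V → V} {lab : V → Lab} {R : ℕ}

lemma Near.mono {u y : V} {n m : ℕ} (h : Near σ u y n) (hnm : n ≤ m) : Near σ u y m := by
  obtain ⟨w, hw, e⟩ := h
  exact ⟨w, hw.trans hnm, e⟩

lemma Near.step {u y : V} {n : ℕ} (h : Near σ u y n) (i : I) : Near σ u (σ i y) (n + 1) := by
  obtain ⟨w, hw, e⟩ := h
  exact ⟨w ++ [i], by simpa using hw, by rw [run_concat, e]⟩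

lemma Near.step' (hσ : ∀ i y, σ i (σ i y) = y) {u y : V} {n : ℕ} (h : Near σ u y n) (i : I) :
    Near σ (σ i u) y (n + 1) := by
  obtain ⟨w, hw, e⟩ := h
  exact ⟨i :: w, by simpa using hw, by rw [run_cons, hσ, e]⟩

lemma near_refl (u : V) (n : ℕ) : Near σ u u n := ⟨[], by simp, rfl⟩

lemma Sys.uniq (S : Sys σ lab R) {u u' y : V} {n m : ℕ} (h : Near σ u y n) (h' : Near σ u' y m)
    (hnm : n + m ≤ 2 * R + 4) (hl : lab u = lab u') : u = u' := by
  obtain ⟨w, hw, e⟩ := h
  obtain ⟨w', hw', e'⟩ := h'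
  have e2 : run σ u (w ++ w'.reverse) = u' := by
    rw [run_append, e, ← e', run_reverse S.inv]
  have := eq_of_lab_eq S.inv lab _ S.free (n + m) (w ++ w'.reverse) u (by simp; omega) hnm
    (by rw [e2, hl])
  rw [← e2, this]

lemma Sys.lab_ne (S : Sys σ lab R) (i : I) (y : V) : lab (σ i y) ≠ lab y :=
  S.free y [i] (red_single i) (by simp) (by simp)

lemma HH_bdd (u : V) (k : I) (y : V) :
    BddAbove {m | ∃ w : List I, Red (k :: w) ∧ run σ u (k :: w) = y ∧ m = R - w.length} :=
  ⟨R, by rintro m ⟨w, -, -, rfl⟩; omega⟩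

lemma HH_le (u : V) (k : I) (y : V) : HH σ R u k y ≤ R :=
  csSup_le' (by rintro m ⟨w, -, -, rfl⟩; omega)

lemma le_HH {u : V} {k : I} {y : V} {w : List I} (h : Red (k :: w)) (e : run σ u (k :: w) = y) :
    R - w.length ≤ HH σ R u k y :=
  le_csSup (HH_bdd u k y) ⟨w, h, e, rfl⟩

lemma HH_pos {u : V} {k : I} {y : V} (h : 0 < HH σ R u k y) :
    ∃ w : List I, Red (k :: w) ∧ run σ u (k :: w) = y ∧ HH σ R u k y = R - w.length := by
  refine Nat.sSup_mem ?_ (HH_bdd u k y)
  by_contra hne
  rw [Set.not_nonempty_iff_eq_empty] at hne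
  unfold HH at h
  rw [hne] at h
  simp at h

lemma HH_head (u : V) (k : I) : HH σ R u k (σ k u) = R :=
  le_antisymm (HH_le _ _ _) (le_HH (w := []) (red_single k) rfl)

lemma Sys.HH_tail (S : Sys σ lab R) (u : V) (k : I) : HH σ R u k u = 0 := by
  by_contra h
  obtain ⟨w, hw, e, h2⟩ := HH_pos (Nat.pos_of_ne_zero h)
  refine S.free u (k :: w) hw (by simp) (by simp; omega) (by rw [e])

lemma Sys.HH_step (S : Sys σ lab R) {u : V} {k : I} {y : V} {i : I}
    (h : ¬ (u = σ i y ∧ k = i)) : HH σ R u k y ≤ HH σ R u k (σ i y) + 1 := by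
  rcases Nat.eq_zero_or_pos (HH σ R u k y) with h0 | h0
  · omega
  obtain ⟨w, hw, e, h2⟩ := HH_pos h0
  rcases List.eq_nil_or_concat w with rfl | ⟨w', j, rfl⟩
  · have hki : k ≠ i := by
      rintro rfl
      refine h ⟨?_, rfl⟩
      rw [← e]; simp [S.inv]
    have := le_HH (R := R) (σ := σ) (u := u) (y := σ i y) (w := [i])
      (red_cons_cons.2 ⟨hki, red_single i⟩) (by rw [← e]; rfl)
    simp at this h2
    omega
  · rw [List.concat_eq_append] at *
    by_cases hji : j = i
    · subst hji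
      have := le_HH (R := R) (σ := σ) (u := u) (y := σ j y) (w := w')
        (Red.left (w := k :: w') hw) (by
          rw [← e, ← List.cons_append, run_concat, S.inv])
      simp at h2
      omega
    · have hr : Red (k :: (w' ++ [j] ++ [i])) := by
        have : k :: (w' ++ [j] ++ [i]) = (k :: w') ++ j :: i :: [] := by simp
        rw [this]
        exact red_append_cons_cons.2 ⟨hw, hji, red_single i⟩
      have := le_HH (R := R) (σ := σ) (u := u) (y := σ i y) hr (by
        rw [← List.cons_append, run_concat, e])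
      simp at this h2
      omega

lemma HH_near {u : V} {k : I} {y : V} (h : 0 < HH σ R u k y) : Near σ u y R := by
  obtain ⟨w, -, e, h2⟩ := HH_pos h
  exact ⟨k :: w, by simp; omega, e⟩

lemma Sys.HH_uniq (S : Sys σ lab R) {u : V} {k k' : I} {y : V} (h : 0 < HH σ R u k y)
    (h' : 0 < HH σ R u k' y) : k = k' := by
  by_contra hk
  obtain ⟨w, hw, e, h2⟩ := HH_pos h
  obtain ⟨w', hw', e', h2'⟩ := HH_pos h'
  have hr : Red (w.reverse ++ k :: k' :: w') :=
    red_append_cons_cons.2 ⟨by simpa using hw.reverse, hk, hw'⟩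
  refine S.free y _ hr (by simp) (by simp; omega) ?_
  have : w.reverse ++ k :: k' :: w' = (k :: w).reverse ++ (k' :: w') := by simp
  rw [this, run_append]
  conv_lhs => rw [← e, run_reverse S.inv, e']

lemma Mt.cons {x u : V} {k : I} {w : List I} (h0 : lab x = lab u)
    (h : Mt σ lab (σ k x) (σ k u) w) : Mt σ lab x u (k :: w) := by
  intro w' hw'
  cases w' with
  | nil => exact h0
  | cons j w' =>
    rw [List.cons_prefix_cons] at hw'
    obtain ⟨rfl, hw'⟩ := hw'
    exact h w' hw'

lemma AA_step {x u : V} {k₁ k₂ : I} (ht : Tame σ lab x u) (h0 : lab x = lab u)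
    (h2 : lab (σ k₂ x) = lab (σ k₂ u)) (hk : k₁ ≠ k₂) :
    AA σ lab (σ k₂ x) (σ k₂ u) k₂ + 1 ≤ AA σ lab x u k₁ := by
  obtain ⟨L, hL⟩ := ht
  have hne : ({m | ∃ w : List I, Red (k₂ :: w) ∧ Mt σ lab (σ k₂ x) (σ k₂ u) w ∧
      w.length = m} : Set ℕ).Nonempty :=
    ⟨0, [], red_single _, fun w' hw' => by rw [List.prefix_nil.1 hw']; exact h2, rfl⟩
  have hbd : BddAbove ({m | ∃ w : List I, Red (k₂ :: w) ∧ Mt σ lab (σ k₂ x) (σ k₂ u) w ∧
      w.length = m} : Set ℕ) := by
    refine ⟨L, ?_⟩
    rintro m ⟨w, hw, hm, rfl⟩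
    have := hL (k₂ :: w) hw (hm.cons h0)
    simp at this; omega
  obtain ⟨w, hw, hm, e⟩ := Nat.sSup_mem hne hbd
  have hbd' : BddAbove ({m | ∃ w : List I, Red (k₁ :: w) ∧ Mt σ lab x u w ∧
      w.length = m} : Set ℕ) := by
    refine ⟨L, ?_⟩
    rintro m ⟨w, hw, hm, rfl⟩
    exact (hL w hw.tail hm).le
  refine le_csSup hbd' ⟨k₂ :: w, red_cons_cons.2 ⟨hk, hw⟩, hm.cons h0, ?_⟩
  rw [List.length_cons, e]; rfl

lemma parent_uniq {x u : V} {k₁ k₂ : I} (ht : Tame σ lab x u) (h0 : lab x = lab u)
    (h1 : lab (σ k₁ x) = lab (σ k₁ u)) (h2 : lab (σ k₂ x) = lab (σ k₂ u))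
    (p1 : AA σ lab x u k₁ ≤ AA σ lab (σ k₁ x) (σ k₁ u) k₁)
    (p2 : AA σ lab x u k₂ ≤ AA σ lab (σ k₂ x) (σ k₂ u) k₂) : k₁ = k₂ := by
  by_contra hk
  have a1 := AA_step ht h0 h2 hk
  have a2 := AA_step ht h0 h1 (Ne.symm hk)
  omega

lemma abs_ss_le (x : V) (k : I) (u y : V) : |ss σ lab R x k u y| ≤ R := by
  unfold ss
  split_ifs
  · rw [abs_of_nonneg (by positivity)]; exact Nat.cast_le.2 (HH_le _ _ _)
  · rw [abs_neg, abs_of_nonneg (by positivity)]; exact Nat.cast_le.2 (HH_le _ _ _)

lemma abs_ms_le (x : V) (k : I) (u y : V) : |ms σ lab R x k u y| ≤ R := by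
  unfold ms
  split_ifs
  · exact abs_ss_le _ _ _ _
  · simp

lemma abs_WW_le (y x : V) (k : I) : |WW σ lab R y x k| ≤ R := by
  unfold WW
  split_ifs
  · rw [abs_neg]; exact abs_ms_le _ _ _ _
  · simp

lemma Sys.ms_near (S : Sys σ lab R) {x : V} {k : I} {u y : V} (h : ms σ lab R x k u y ≠ 0) :
    Near σ u y (R + 1) ∧ lab (σ k u) = lab (σ k x) := by
  unfold ms at h
  split_ifs at h with h1
  · refine ⟨?_, h1⟩
    unfold ss at h
    split_ifs at h
    · exact (HH_near (Nat.pos_of_ne_zero (by exact_mod_cast h))).mono (by omega)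
    · have := (HH_near (σ := σ) (R := R) (u := σ k u) (k := k) (y := y)
        (Nat.pos_of_ne_zero (by simpa using h))).step' S.inv k
      rwa [S.inv] at this
  · exact absurd rfl h

lemma Sys.WW_eq (S : Sys σ lab R) {y x u : V} (k : I) (hu : Near σ u y (R + 3))
    (hl : lab u = lab x) : WW σ lab R y x k = -ms σ lab R x k u y := by
  unfold WW
  split_ifs with h
  · rw [S.uniq h.choose_spec.1 hu (by omega) (h.choose_spec.2.trans hl.symm)]
  · by_contra hne
    exact h ⟨u, (S.ms_near (fun h0 => hne (by rw [h0]; simp))).1, hl⟩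

lemma Sys.WW_ne (S : Sys σ lab R) {y x : V} {k : I} (h : WW σ lab R y x k ≠ 0) :
    ∃ u, Near σ u y (R + 1) ∧ lab u = lab x ∧ lab (σ k u) = lab (σ k x) := by
  unfold WW at h
  split_ifs at h with h1
  · exact ⟨_, h1.choose_spec.1, h1.choose_spec.2, (S.ms_near (neg_ne_zero.1 h)).2⟩
  · exact absurd rfl h

lemma Sys.ss_incr (S : Sys σ lab R) (x : V) (k : I) (u y : V) (i : I) :
    |(R : ℝ) * ((if u = y ∧ k = i then 1 else 0) - (if u = σ i y ∧ k = i then 1 else 0))
      - (ss σ lab R x k u (σ i y) - ss σ lab R x k u y)| ≤ 1 := by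
  have hy : σ i y ≠ y := fun h => S.lab_ne i y (by rw [h])
  by_cases h1 : u = y ∧ k = i
  · obtain ⟨rfl, rfl⟩ := h1
    have e1 : HH σ R u k (σ k u) = R := HH_head u k
    have e2 : HH σ R (σ k u) k u = R := by
      have := HH_head (σ := σ) (R := R) (σ k u) k
      rwa [S.inv] at this
    have e3 : ¬ (u = σ k u ∧ k = k) := fun h => hy h.1.symm
    rw [if_pos ⟨rfl, rfl⟩, if_neg e3]
    unfold ss
    split_ifs
    · rw [e1, S.HH_tail]; simp
    · rw [e2, S.HH_tail]; simp
  by_cases h2 : u = σ i y ∧ k = i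
  · obtain ⟨rfl, rfl⟩ := h2
    have e1 : HH σ R y k (σ k y) = R := HH_head y k
    have e2 : HH σ R (σ k y) k y = R := by
      have := HH_head (σ := σ) (R := R) (σ k y) k
      rwa [S.inv] at this
    unfold ss
    split_ifs <;> simp_all [S.HH_tail, S.inv]
  rw [if_neg h1, if_neg h2]
  unfold ss
  split_ifs
  · have a1 := S.HH_step (u := u) (k := k) (y := y) (i := i) h2
    have a2 := S.HH_step (u := u) (k := k) (y := σ i y) (i := i) (by rwa [S.inv])
    rw [S.inv] at a2
    have a1' : (HH σ R u k y : ℝ) ≤ HH σ R u k (σ i y) + 1 := by exact_mod_cast a1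
    have a2' : (HH σ R u k (σ i y) : ℝ) ≤ HH σ R u k y + 1 := by exact_mod_cast a2
    rw [abs_le]; constructor <;> linarith
  · have a1 := S.HH_step (u := σ k u) (k := k) (y := y) (i := i) (by
      rintro ⟨h, rfl⟩
      exact h1 ⟨by rw [← S.inv k u, h, S.inv], rfl⟩)
    have a2 := S.HH_step (u := σ k u) (k := k) (y := σ i y) (i := i) (by
      rintro ⟨h, rfl⟩
      exact h2 ⟨by rw [← S.inv k u, h, S.inv], rfl⟩)
    rw [S.inv] at a2
    have a1' : (HH σ R (σ k u) k y : ℝ) ≤ HH σ R (σ k u) k (σ i y) + 1 := by exact_mod_cast a1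
    have a2' : (HH σ R (σ k u) k (σ i y) : ℝ) ≤ HH σ R (σ k u) k y + 1 := by exact_mod_cast a2
    rw [abs_le]; constructor <;> linarith

/-- The increments of the kernel along an edge cancel the indicator of its colour. -/
theorem Sys.WW_incr (S : Sys σ lab R) (y : V) (i : I) (x : V) (k : I) :
    |(R : ℝ) * ((if col σ lab x k = col σ lab y i then 1 else 0)
        - (if col σ lab (σ k x) k = col σ lab y i then 1 else 0))
      + WW σ lab R (σ i y) x k - WW σ lab R y x k| ≤ 1 := by
  have hy : Near σ y y (R + 2) := near_refl _ _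
  have hy' : Near σ (σ i y) y (R + 2) := ((near_refl y 0).step' S.inv i).mono (by omega)
  by_cases h : ∃ u, Near σ u y (R + 2) ∧ lab u = lab x
  · obtain ⟨u, hu, hl⟩ := h
    rw [S.WW_eq k (hu.mono (by omega)) hl, S.WW_eq k (hu.step i) hl]
    by_cases hm : lab (σ k u) = lab (σ k x)
    · have c1 : (col σ lab x k = col σ lab y i) ↔ (u = y ∧ k = i) := by
        simp only [col, Prod.mk.injEq]
        constructor
        · rintro ⟨a, b, -⟩
          exact ⟨S.uniq hu hy (by omega) (hl.trans a), b⟩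
        · rintro ⟨rfl, rfl⟩
          exact ⟨hl.symm, rfl, hm.symm⟩
      have c2 : (col σ lab (σ k x) k = col σ lab y i) ↔ (u = σ i y ∧ k = i) := by
        simp only [col, Prod.mk.injEq, S.inv]
        constructor
        · rintro ⟨-, b, c⟩
          exact ⟨S.uniq hu hy' (by omega) (hl.trans c), b⟩
        · rintro ⟨rfl, rfl⟩
          rw [S.inv] at hm
          exact ⟨hm.symm, rfl, hl.symm⟩
      simp only [c1, c2, ms, hm, if_true]
      have := S.ss_incr x k u y i
      convert this using 2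
      ring
    · have c1 : ¬ (col σ lab x k = col σ lab y i) := by
        simp only [col, Prod.mk.injEq]
        rintro ⟨a, rfl, c⟩
        obtain rfl := S.uniq hu hy (by omega) (hl.trans a)
        exact hm c.symm
      have c2 : ¬ (col σ lab (σ k x) k = col σ lab y i) := by
        simp only [col, Prod.mk.injEq, S.inv]
        rintro ⟨a, rfl, c⟩
        obtain rfl := S.uniq hu hy' (by omega) (hl.trans c)
        rw [S.inv] at hm
        exact hm a.symm
      simp [c1, c2, ms, hm]
  · have c1 : ¬ (col σ lab x k = col σ lab y i) := by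
      simp only [col, Prod.mk.injEq]
      rintro ⟨a, -, -⟩
      exact h ⟨y, hy, a.symm⟩
    have c2 : ¬ (col σ lab (σ k x) k = col σ lab y i) := by
      simp only [col, Prod.mk.injEq, S.inv]
      rintro ⟨-, -, c⟩
      exact h ⟨_, hy', c.symm⟩
    have w1 : WW σ lab R y x k = 0 := by
      by_contra hne
      obtain ⟨u, hu, hl, -⟩ := S.WW_ne hne
      exact h ⟨u, hu.mono (by omega), hl⟩
    have w2 : WW σ lab R (σ i y) x k = 0 := by
      by_contra hne
      obtain ⟨u, hu, hl, -⟩ := S.WW_ne hne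
      have := hu.step i
      rw [S.inv] at this
      exact h ⟨u, this, hl⟩
    simp [c1, c2, w1, w2]

lemma sum_le_of_uniq [Fintype I] (f : I → ℝ) (B : ℝ) (hB : 0 ≤ B) (hf : ∀ i, f i ≤ B)
    (hu : ∀ i j, f i ≠ 0 → f j ≠ 0 → i = j) : ∑ i, f i ≤ B := by
  by_cases h : ∃ i, f i ≠ 0
  · obtain ⟨i, hi⟩ := h
    rw [Finset.sum_eq_single i (fun j _ hj => by
      by_contra hne
      exact hj (hu j i hne hi)) (by simp)]
    exact hf i
  · push Not at h
    simp [h, hB]

/-- The divergence of the kernel is small where matching paths are bounded. -/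
theorem Sys.WW_div [Fintype I] (S : Sys σ lab R) (y x : V)
    (ht : ∀ u n, Near σ u y n → lab u = lab x → Tame σ lab x u) :
    |∑ k, (WW σ lab R y (σ k x) k - WW σ lab R y x k)| ≤ 4 * R := by
  by_cases h : ∃ u, Near σ u y (R + 2) ∧ lab u = lab x
  · obtain ⟨u, hu, hl⟩ := h
    have htu := ht u _ hu hl
    let f : I → ℝ := fun k => HH σ R u k y
    let g : I → ℝ := fun k => if lab (σ k x) = lab (σ k u) ∧
      AA σ lab x u k ≤ AA σ lab (σ k x) (σ k u) k then R else 0
    have hf : ∑ k, f k ≤ R := by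
      refine sum_le_of_uniq f R (by positivity) (fun k => ?_) fun i j hi hj => ?_
      · simp only [f]; exact Nat.cast_le.2 (HH_le _ _ _)
      · exact S.HH_uniq (Nat.pos_of_ne_zero (by simpa [f] using hi))
          (Nat.pos_of_ne_zero (by simpa [f] using hj))
    have hg : ∑ k, g k ≤ R := by
      refine sum_le_of_uniq g R (by positivity) (fun k => ?_) fun i j hi hj => ?_
      · simp only [g]; split_ifs <;> simp
      · simp only [g, ne_eq, ite_eq_right_iff, Classical.not_imp] at hi hj
        exact parent_uniq htu hl.symm hi.1.1 hj.1.1 hi.1.2 hj.1.2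
    have hk : ∀ k, |WW σ lab R y (σ k x) k - WW σ lab R y x k| ≤ 2 * f k + 2 * g k := by
      intro k
      rw [S.WW_eq k (hu.mono (by omega)) hl]
      have hf0 : 0 ≤ f k := by simp only [f]; positivity
      have hH : (HH σ R (σ k u) k y : ℝ) ≤ R := by exact Nat.cast_le.2 (HH_le _ _ _)
      have hH0 : (0 : ℝ) ≤ HH σ R (σ k u) k y := by positivity
      by_cases hm : lab (σ k u) = lab (σ k x)
      · rw [S.WW_eq k (hu.step' S.inv k) hm]
        simp only [ms, ss, S.inv, hm, hl, if_true, g, true_and]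
        split_ifs <;> rw [abs_le] <;> constructor <;>
          first
          | (exfalso; omega)
          | (simp only [f] at *; linarith)
      · have w1 : WW σ lab R y (σ k x) k = 0 := by
          by_contra hne
          obtain ⟨u', hu', hl', hm'⟩ := S.WW_ne hne
          rw [S.inv] at hm'
          have := S.uniq hu (hu'.step' S.inv k) (by omega) (hl.trans hm'.symm)
          rw [this, S.inv] at hm
          exact hm hl'
        have hg0 : 0 ≤ g k := by simp only [g]; split_ifs <;> simp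
        simp only [w1, ms, hm, if_false]
        simp; linarith
    calc _ ≤ ∑ k, |WW σ lab R y (σ k x) k - WW σ lab R y x k| := Finset.abs_sum_le_sum_abs _ _
      _ ≤ ∑ k, (2 * f k + 2 * g k) := Finset.sum_le_sum fun k _ => hk k
      _ = 2 * ∑ k, f k + 2 * ∑ k, g k := by
        rw [Finset.sum_add_distrib, Finset.mul_sum, Finset.mul_sum]
      _ ≤ 4 * R := by linarith
  · have : ∀ k, WW σ lab R y (σ k x) k - WW σ lab R y x k = 0 := by
      intro k
      have w1 : WW σ lab R y x k = 0 := by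
        by_contra hne
        obtain ⟨u, hu, hl, -⟩ := S.WW_ne hne
        exact h ⟨u, hu.mono (by omega), hl⟩
      have w2 : WW σ lab R y (σ k x) k = 0 := by
        by_contra hne
        obtain ⟨u, hu, -, hm⟩ := S.WW_ne hne
        rw [S.inv] at hm
        exact h ⟨_, hu.step' S.inv k, hm⟩
      rw [w1, w2, sub_zero]
    simp [this]

end Crest.Agent.R115
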