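import Crest.Agent.R115.Free

/-!
A wedge of countably many bounded pieces, each metrised by a bounded family of real functions
together with all point indicators.
-/

set_option autoImplicit false

open scoped Classical
open Crest.AnalysisR

namespace Crest.Agent.R115

/-- A set with a uniformly bounded family of real functions. -/
structure Piece where
  M : Type
  G : Type
  f : G → M → ℝ
  B : ℝ
  bound : ∀ γ p, |f γ p| ≤ B

lemma bdd_of_bound {M G : Type} (F : G → M → ℝ) (b : M → ℝ) (hb : ∀ γ p, |F γ p| ≤ b p)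
    (p q : M) : BddAbove (Set.range fun γ => |F γ p - F γ q|) :=
  ⟨b p + b q, by
    rintro _ ⟨γ, rfl⟩
    exact (abs_sub _ _).trans (add_le_add (hb γ p) (hb γ q))⟩

/-- The supremum metric of a pointwise bounded separating family of functions. -/
@[reducible] noncomputable def supMetric {M G : Type} (F : G → M → ℝ) (b : M → ℝ)
    (hb : ∀ γ p, |F γ p| ≤ b p) (hsep : ∀ p q, (∀ γ, F γ p = F γ q) → p = q) :
    MetricSpace M where
  dist p q := ⨆ γ, |F γ p - F γ q|
  dist_self p := by simp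
  dist_comm p q := by simp only [abs_sub_comm]
  dist_triangle p q r := by
    refine Real.iSup_le (fun γ => ?_)
      (add_nonneg (Real.iSup_nonneg fun _ => abs_nonneg _) (Real.iSup_nonneg fun _ => abs_nonneg _))
    exact (abs_sub_le _ _ _).trans (add_le_add (le_ciSup (bdd_of_bound F b hb p q) γ)
      (le_ciSup (bdd_of_bound F b hb q r) γ))
  eq_of_dist_eq_zero {p q} h := by
    refine hsep p q fun γ => ?_
    have := le_ciSup (bdd_of_bound F b hb p q) γ
    rw [show (⨆ γ, |F γ p - F γ q|) = 0 from h] at this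
    exact sub_eq_zero.1 (abs_nonpos_iff.1 this)

attribute [local instance] PointedMetric.metric

section
variable (Pc : ℕ → Piece)

/-- The points of the wedge. -/
abbrev WM : Type := Option (Σ n, (Pc n).M)

/-- The inclusion of a piece. -/
def We (n : ℕ) (p : (Pc n).M) : WM Pc := some ⟨n, p⟩

/-- The functions defining the metric of the wedge. -/
noncomputable def WF : (Σ n, (Pc n).G) ⊕ (Σ n, (Pc n).M) → WM Pc → ℝ
  | Sum.inl γ => Function.extend (We Pc γ.1) ((Pc γ.1).f γ.2) 0
  | Sum.inr p => fun q => if q = some p then 1 else 0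

/-- A pointwise bound. -/
noncomputable def Wb : WM Pc → ℝ
  | none => 1
  | some p => max 1 (Pc p.1).B

/-- The level of a point. -/
def Wlev : WM Pc → ℕ
  | none => 0
  | some p => p.1 + 1

lemma We_inj (n : ℕ) : Function.Injective (We Pc n) := fun p q h => by
  simpa [We] using h

lemma WF_none (γ) : WF Pc γ none = 0 := by
  rcases γ with (⟨n, γ⟩ | p)
  · exact Function.extend_apply' _ _ _ (by rintro ⟨p, hp⟩; simp [We] at hp)
  · simp [WF]

lemma WF_ne (n γ m p) (hmn : m ≠ n) : WF Pc (Sum.inl ⟨n, γ⟩) (some ⟨m, p⟩) = 0 := by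
  refine Function.extend_apply' _ _ _ ?_
  rintro ⟨q, hq⟩
  simp only [We, Option.some.injEq, Sigma.mk.inj_iff] at hq
  exact hmn hq.1.symm

lemma WF_eq (n γ p) : WF Pc (Sum.inl ⟨n, γ⟩) (some ⟨n, p⟩) = (Pc n).f γ p :=
  (We_inj Pc n).extend_apply _ _ _

lemma WF_bound (γ p) : |WF Pc γ p| ≤ Wb Pc p := by
  rcases p with (_ | ⟨m, p⟩)
  · rw [WF_none]; simp [Wb]
  · rcases γ with (⟨n, γ⟩ | q)
    · by_cases hmn : m = n
      · subst hmn
        rw [WF_eq]
        exact ((Pc m).bound γ p).trans (le_max_right _ _)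
      · rw [WF_ne _ _ _ _ _ hmn]; simp [Wb]
    · simp only [WF, Wb]
      split_ifs <;> simp

lemma WF_ind (p q : WM Pc) (h : p ≠ q) : ∃ γ, |WF Pc γ p - WF Pc γ q| = 1 := by
  rcases p with (_ | p) <;> rcases q with (_ | q)
  · exact absurd rfl h
  · exact ⟨Sum.inr q, by simp [WF]⟩
  · exact ⟨Sum.inr p, by simp [WF]⟩
  · exact ⟨Sum.inr p, by simp [WF, h.symm]⟩

lemma WF_sep (p q : WM Pc) (h : ∀ γ, WF Pc γ p = WF Pc γ q) : p = q := by
  by_contra hne
  obtain ⟨γ, hγ⟩ := WF_ind Pc p q hne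
  simp [h γ] at hγ

/-- The wedge. -/
noncomputable def wedge : PointedMetric :=
  ⟨WM Pc, supMetric (WF Pc) (Wb Pc) (WF_bound Pc) (WF_sep Pc), none⟩

lemma wedge_le (γ) (p q : (wedge Pc).M) : |WF Pc γ p - WF Pc γ q| ≤ dist p q :=
  le_ciSup (bdd_of_bound (WF Pc) (Wb Pc) (WF_bound Pc) p q) γ

lemma wedge_ge (p q : (wedge Pc).M) (K : ℝ) (hK : 0 ≤ K)
    (h : ∀ γ, |WF Pc γ p - WF Pc γ q| ≤ K) : dist p q ≤ K :=
  Real.iSup_le h hK

lemma wedge_sep (p q : (wedge Pc).M) (h : p ≠ q) : 1 ≤ dist p q := by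
  obtain ⟨γ, hγ⟩ := WF_ind Pc p q h
  exact hγ ▸ wedge_le Pc γ p q

lemma wedge_ap : HasAP (wedge Pc).FreeSpace := by
  refine hasAP_of_levels (P := wedge Pc) (Wlev Pc)
    (fun n => 1 + ∑ m ∈ Finset.range n, |(Pc m).B|)
    (fun n => by positivity) (wedge_sep Pc) ?_ ?_
  · intro n p hp
    have h0 : 0 ≤ ∑ m ∈ Finset.range n, |(Pc m).B| := by positivity
    refine wedge_ge Pc _ _ _ (by positivity) fun γ => ?_
    rw [show WF Pc γ (wedge Pc).base = 0 from WF_none Pc γ, sub_zero]
    refine (WF_bound Pc γ p).trans ?_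
    rcases p with (_ | ⟨m, p⟩)
    · simp only [Wb]; linarith
    · have : |(Pc m).B| ≤ ∑ m ∈ Finset.range n, |(Pc m).B| :=
        Finset.single_le_sum (f := fun m => |(Pc m).B|) (fun _ _ => abs_nonneg _)
          (Finset.mem_range.2 hp)
      have := le_abs_self (Pc m).B
      simp only [Wb]
      refine max_le ?_ ?_ <;> linarith
  · intro p q hpq
    refine wedge_ge Pc _ _ _ dist_nonneg fun γ => ?_
    rw [show WF Pc γ (wedge Pc).base = 0 from WF_none Pc γ, sub_zero]
    by_cases h1 : WF Pc γ p = 0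
    · rw [h1]; simp
    suffices h2 : WF Pc γ q = 0 by
      have := wedge_le Pc γ p q
      rwa [h2, sub_zero] at this
    rcases q with (_ | ⟨m', q⟩)
    · exact WF_none Pc γ
    rcases p with (_ | ⟨m, p⟩)
    · exact absurd (WF_none Pc γ) h1
    have hmm : m < m' := by simpa [Wlev] using hpq
    rcases γ with (⟨n, γ⟩ | r)
    · have : m = n := by
        by_contra hmn
        exact h1 (WF_ne Pc n γ m p hmn)
      exact WF_ne Pc n γ m' q (by omega)
    · simp only [WF, ite_eq_right_iff, Classical.not_imp] at h1 ⊢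
      intro h3
      have := h1.1.trans h3.symm
      simp only [Option.some.injEq, Sigma.mk.inj_iff] at this
      omega

end

theorem exists_wedge (Pc : ℕ → Piece) (hc : ∀ n, Countable (Pc n).M) :
    ∃ (P : PointedMetric) (e : ∀ n, (Pc n).M → P.M), Countable P.M ∧
      (∀ p q : P.M, p ≠ q → 1 ≤ dist p q) ∧ HasAP P.FreeSpace ∧
      (∀ n, Function.Injective (e n)) ∧ (∀ n p, e n p ≠ P.base) ∧
      (∀ n γ p q, |Function.extend (e n) ((Pc n).f γ) 0 p
        - Function.extend (e n) ((Pc n).f γ) 0 q| ≤ dist p q) ∧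
      (∀ n p q (K : ℝ), 1 ≤ K → (∀ γ, |(Pc n).f γ p - (Pc n).f γ q| ≤ K) →
        dist (e n p) (e n q) ≤ K) := by
  refine ⟨wedge Pc, We Pc, inferInstanceAs (Countable (Option (Σ n, (Pc n).M))), wedge_sep Pc,
    wedge_ap Pc, We_inj Pc, fun n p => Option.some_ne_none _,
    fun n γ p q => wedge_le Pc (Sum.inl ⟨n, γ⟩) p q, ?_⟩
  intro n p q K hK h
  refine wedge_ge Pc _ _ _ (by linarith) ?_
  rintro (⟨m, γ⟩ | r)
  · by_cases hmn : n = m
    · subst hmn
      unfold We
      rw [WF_eq, WF_eq]; exact h γ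
    · unfold We
      rw [WF_ne Pc m γ n p hmn, WF_ne Pc m γ n q hmn]; simp; linarith
  · simp only [WF]
    split_ifs <;> simp <;> linarith

end Crest.Agent.R115
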