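import Crest.Agent.R115.Count
import Crest.Agent.R115.Wedge

/-!
The bounded piece on which no finite-rank operator of norm at most `n` is close to the identity on
a fixed finite set of points.
-/

set_option autoImplicit false

open scoped Classical
open Crest.AnalysisR

namespace Crest.Agent.R115

attribute [local instance] PointedMetric.metric

section piece
variable {I V Lab : Type} (σ : I → V → V) (lab : V → Lab) (R k : ℕ)

/-- The kernel, extended by zero. -/
noncomputable def WO : Option V → V → I → ℝ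
  | none => fun _ _ => 0
  | some y => WW σ lab R y

lemma abs_WO_le (o : Option V) (x : V) (j : I) : |WO σ lab R o x j| ≤ R := by
  cases o with
  | none => simp [WO]
  | some y => exact abs_WW_le _ _ _

/-- The functions on the piece. -/
noncomputable def pf : (V × I) ⊕ Finset (Lab × I × Lab) →
    (Lab × I × Lab → Fin (k + 1)) × Option V → ℝ
  | Sum.inl g => fun p => (R : ℝ) * (((p.1 (col σ lab g.1 g.2) : ℕ) : ℝ)
      - ((p.1 (col σ lab (σ g.2 g.1) g.2) : ℕ) : ℝ)) + WO σ lab R p.2 g.1 g.2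
  | Sum.inr S => fun p => ∑ c ∈ S, ((p.1 c : ℕ) : ℝ)

lemma fin_le (a : Fin (k + 1)) : ((a : ℕ) : ℝ) ≤ k := by
  exact_mod_cast Nat.lt_succ_iff.1 a.2

/-- The piece. -/
noncomputable def piece [Fintype I] [Fintype Lab] : Piece where
  M := (Lab × I × Lab → Fin (k + 1)) × Option V
  G := (V × I) ⊕ Finset (Lab × I × Lab)
  f := pf σ lab R k
  B := R * k + R + Fintype.card (Lab × I × Lab) * k
  bound := by
    rintro (g | S) p
    · simp only [pf]
      have h1 := fin_le k (p.1 (col σ lab g.1 g.2))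
      have h2 := fin_le k (p.1 (col σ lab (σ g.2 g.1) g.2))
      have h3 := abs_WO_le σ lab R p.2 g.1 g.2
      have h4 : |((p.1 (col σ lab g.1 g.2) : ℕ) : ℝ)
          - ((p.1 (col σ lab (σ g.2 g.1) g.2) : ℕ) : ℝ)| ≤ k := by
        rw [abs_le]
        constructor <;> linarith [Nat.cast_nonneg (α := ℝ) (p.1 (col σ lab g.1 g.2) : ℕ),
          Nat.cast_nonneg (α := ℝ) (p.1 (col σ lab (σ g.2 g.1) g.2) : ℕ)]
      refine (abs_add_le _ _).trans ?_
      rw [abs_mul, Nat.abs_cast]
      have h5 := mul_le_mul_of_nonneg_left h4 (Nat.cast_nonneg (α := ℝ) R)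
      have : (0 : ℝ) ≤ Fintype.card (Lab × I × Lab) * k := by positivity
      linarith
    · simp only [pf]
      rw [abs_of_nonneg (by positivity)]
      have h1 : ∑ c ∈ S, ((p.1 c : ℕ) : ℝ) ≤ S.card • (k : ℝ) :=
        Finset.sum_le_card_nsmul _ _ _ fun c _ => fin_le k _
      have h2 : (S.card : ℝ) ≤ Fintype.card (Lab × I × Lab) := by
        exact_mod_cast Finset.card_le_univ S
      rw [nsmul_eq_mul] at h1
      have h3 := mul_le_mul_of_nonneg_right h2 (Nat.cast_nonneg (α := ℝ) k)
      have : (0 : ℝ) ≤ R * k + R := by positivity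
      linarith

end piece

lemma shift_val {C : Type} [DecidableEq C] {k : ℕ} (v : C → Fin (k + 1)) (c : C) (h : v c ≠ Fin.last k) (c' : C) :
    (((v + Pi.single c 1 : C → Fin (k + 1)) c' : ℕ) : ℝ)
      = ((v c' : ℕ) : ℝ) + if c' = c then 1 else 0 := by
  by_cases hc : c' = c
  · subst hc
    simp only [Pi.add_apply, Pi.single_eq_same, if_true]
    rw [Fin.val_add_one_of_lt (lt_of_le_of_ne (Fin.le_last _) h)]
    push_cast; rfl
  · simp [hc]

lemma card_last {C : Type} [DecidableEq C] [Fintype C] (k : ℕ) (c : C) :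
    (∑ v : C → Fin (k + 1), if v c = Fin.last k then (1 : ℝ) else 0) * (k + 1)
      = Fintype.card (C → Fin (k + 1)) := by
  have h : ∀ a : Fin (k + 1), (∑ v : C → Fin (k + 1), if v c = a then (1 : ℝ) else 0)
      = ∑ v : C → Fin (k + 1), if v c = Fin.last k then (1 : ℝ) else 0 := by
    intro a
    refine Fintype.sum_equiv (Equiv.addRight (Pi.single c (Fin.last k - a))) _ _ fun v => ?_
    simp only [Equiv.coe_addRight, Pi.add_apply, Pi.single_eq_same]
    congr 1
    refine propext ⟨fun h => by rw [h]; abel, fun h => ?_⟩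
    have : v c = Fin.last k - (Fin.last k - a) := eq_sub_of_add_eq h
    rw [this]; abel
  have h2 : ∑ a : Fin (k + 1), ∑ v : C → Fin (k + 1), (if v c = a then (1 : ℝ) else 0)
      = Fintype.card (C → Fin (k + 1)) := by
    rw [Finset.sum_comm]
    simp
  rw [← h2]
  simp only [h]
  simp [mul_comm]

lemma lip_of_bdd {P : PointedMetric} (hsep : ∀ p q : P.M, p ≠ q → 1 ≤ dist p q) (h : P.M → ℝ)
    (b : ℝ) (hb : ∀ p, |h p| ≤ b) (p q : P.M) : |h p - h q| ≤ (2 * b) * dist p q := by
  by_cases hpq : p = q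
  · subst hpq; simp
  · have h1 := hsep p q hpq
    have h2 := (abs_sub (h p) (h q)).trans (add_le_add (hb p) (hb q))
    have h3 : 0 ≤ b := (abs_nonneg _).trans (hb p)
    nlinarith

lemma abs_extend_le {M N : Type} (e : M → N) (h : M → ℝ) (b : ℝ) (hb0 : 0 ≤ b)
    (hb : ∀ p, |h p| ≤ b) (q : N) : |Function.extend e h 0 q| ≤ b := by
  rw [Function.extend_def]
  split_ifs
  · exact hb _
  · simpa using hb0

theorem no_operator {I V Lab : Type} [Fintype I] [Fintype Lab] {σ : I → V → V} {lab : V → Lab}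
    (n R k : ℕ) (hR : R = n + 6) (hI : Fintype.card I = 12 * n * R ^ 2 + 1)
    (hk : k = 2 * n * R + R) (S : Sys σ lab R)
    (hG : ∀ (s : Finset V) (β : ℝ), 0 < β → ∃ Y B : Finset V, Y.Nonempty ∧
        (∀ i, ∀ y ∈ Y, σ i y ∈ Y) ∧ (B.card : ℝ) ≤ β * Y.card ∧
        ∀ x ∈ Y, x ∉ B → ∀ y ∈ s, ∀ u n, Near σ u y n → lab u = lab x → Tame σ lab x u)
    (P : PointedMetric) (e : (Lab × I × Lab → Fin (k + 1)) × Option V → P.M)
    (he : Function.Injective e) (hbase : ∀ p, e p ≠ P.base)
    (hsep : ∀ p q : P.M, p ≠ q → 1 ≤ dist p q)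
    (hlip : ∀ γ p q, |Function.extend e (pf σ lab R k γ) 0 p
        - Function.extend e (pf σ lab R k γ) 0 q| ≤ dist p q)
    (hdist : ∀ p q (K : ℝ), 1 ≤ K → (∀ γ, |pf σ lab R k γ p - pf σ lab R k γ q| ≤ K) →
        dist (e p) (e q) ≤ K)
    (T : P.FreeSpace →L[ℝ] P.FreeSpace)
    (hT : FiniteDimensional ℝ (LinearMap.range T.toLinearMap)) (hTn : ‖T‖ ≤ n)
    (hA : ∀ v, ‖T (dl P (e (v, none))) - dl P (e (v, none))‖ ≤ 1) : False := by
  have hR1 : (1 : ℝ) ≤ R := by rw [hR]; push_cast; linarith [Nat.cast_nonneg (α := ℝ) n]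
  have hn0 : (0 : ℝ) ≤ n := Nat.cast_nonneg n
  set Δ : ℝ := (Fintype.card I : ℝ) with hΔ
  have hΔ' : Δ = 12 * n * R ^ 2 + 1 := by rw [hΔ, hI]; push_cast; ring
  have hΔ1 : 1 ≤ Δ := by rw [hΔ']; have : (0 : ℝ) ≤ 12 * n * R ^ 2 := by positivity
                         linarith
  have hE : ∀ (h : _ → ℝ) p, Function.extend e h 0 (e p) = h p := fun h p => he.extend_apply _ _ _
  have hE' : ∀ (h : _ → ℝ) q, (¬ ∃ p, e p = q) → Function.extend e h 0 q = 0 :=
    fun h q hq => Function.extend_apply' _ _ _ hq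
  have hE0 : ∀ h : _ → ℝ, Function.extend e h 0 P.base = 0 :=
    fun h => hE' h _ (by rintro ⟨p, hp⟩; exact hbase p hp)
  -- the coordinate functionals
  have hΨ : ∀ g : V × I, ∃ φ : P.FreeSpace →L[ℝ] ℝ,
      ∀ p, φ (dl P p) = Function.extend e (pf σ lab R k (Sum.inl g)) 0 p := by
    intro g
    obtain ⟨φ, hφ⟩ := exists_functional (Function.extend e (pf σ lab R k (Sum.inl g)) 0) 1
      zero_le_one (fun p q => by rw [one_mul]; exact hlip _ p q)
    exact ⟨φ, fun p => by rw [hφ, hE0, sub_zero]⟩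
  choose Ψ hΨ using hΨ
  have hΨn : ∀ g γ, |Ψ g γ| ≤ ‖γ‖ := by
    intro g γ
    have := abs_le_of_lip (Ψ g) 1 zero_le_one
      (fun p q => by rw [one_mul, hΨ, hΨ]; exact hlip _ p q) γ
    rwa [one_mul] at this
  have hTγ : ∀ γ (ρ : ℝ), ‖γ‖ ≤ ρ → ‖T γ‖ ≤ n * ρ := fun γ ρ h =>
    (T.le_opNorm γ).trans (mul_le_mul hTn h (norm_nonneg _) hn0)
  have hd : ∀ v y, ‖dl P (e (v, some y)) - dl P (e (v, none))‖ ≤ R := by
    intro v y
    refine (norm_dl_sub _ _).trans (hdist _ _ _ hR1 ?_)
    rintro (g | S')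
    · simp only [pf, WO, add_zero, add_sub_cancel_left]
      exact abs_WW_le _ _ _
    · simp [pf]
  let D : (Lab × I × Lab → Fin (k + 1)) → V → P.FreeSpace :=
    fun v y => T (dl P (e (v, some y)) - dl P (e (v, none)))
  have hD : ∀ v y, ‖D v y‖ ≤ n * R := fun v y => hTγ _ _ (hd v y)
  -- the finite set
  have hη : 0 < 1 / (2 * (2 * Δ * R)) := by positivity
  obtain ⟨s, hs⟩ := exists_finset_small T hT R _ hη
  let sV : Finset V := Finset.eraseNone ((s.preimage e he.injOn).image Prod.snd)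
  have hsV : ∀ v y, e (v, some y) ∈ s → y ∈ sV := by
    intro v y h
    simp only [sV, Finset.mem_eraseNone, Finset.mem_image, Finset.mem_preimage]
    exact ⟨_, h, rfl⟩
  have hβ : 0 < 1 / (2 * (n : ℝ) * R + 1) := by positivity
  obtain ⟨Y, B, hYne, hYσ, hB, hgood⟩ := hG sV _ hβ
  -- divergences
  let dv : Option V → V → ℝ := fun o x => ∑ j, (WO σ lab R o (σ j x) j - WO σ lab R o x j)
  have hdv : ∀ o x, |dv o x| ≤ 2 * Δ * R := by
    intro o x
    refine (Finset.abs_sum_le_sum_abs _ _).trans ?_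
    refine (Finset.sum_le_card_nsmul _ _ (2 * (R : ℝ)) fun j _ => ?_).trans ?_
    · have := (abs_sub _ _).trans (add_le_add (abs_WO_le σ lab R o (σ j x) j)
        (abs_WO_le σ lab R o x j))
      linarith
    · rw [nsmul_eq_mul, Finset.card_univ]; apply le_of_eq; ring
  let Z : V → (P.FreeSpace →L[ℝ] ℝ) := fun x => ∑ j, (Ψ (σ j x, j) - Ψ (x, j))
  have hZ : ∀ x γ, Z x γ = ∑ j, (Ψ (σ j x, j) γ - Ψ (x, j) γ) := by
    intro x γ
    simp [Z]
  have hZbad : ∀ x v, |Z x (D v x)| ≤ 2 * Δ * (n * R) := by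
    intro x v
    rw [hZ]
    refine (Finset.abs_sum_le_sum_abs _ _).trans ?_
    refine (Finset.sum_le_card_nsmul _ _ (2 * ((n : ℝ) * R)) fun j _ => ?_).trans ?_
    · have := (abs_sub _ _).trans (add_le_add (hΨn (σ j x, j) (D v x)) (hΨn (x, j) (D v x)))
      linarith [hD v x]
    · rw [nsmul_eq_mul, Finset.card_univ]; apply le_of_eq; ring
  have hZgood : ∀ x ∈ Y, x ∉ B → ∀ v, |Z x (D v x)| ≤ Δ := by
    intro x hx hxB v
    let h1 : (Lab × I × Lab → Fin (k + 1)) × Option V → ℝ :=
      fun p => if ∃ y ∈ sV, p.2 = some y then dv p.2 x else 0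
    let h2 : (Lab × I × Lab → Fin (k + 1)) × Option V → ℝ :=
      fun p => if ∃ y ∈ sV, p.2 = some y then 0 else dv p.2 x
    have hh1 : ∀ p, |h1 p| ≤ 4 * R := by
      intro p
      simp only [h1]
      split_ifs with h
      · obtain ⟨y, hy, h⟩ := h
        rw [h]
        exact S.WW_div y x (hgood x hx hxB y hy)
      · simp
    have hh2 : ∀ p, |h2 p| ≤ 2 * Δ * R := by
      intro p
      simp only [h2]
      split_ifs with h
      · simp; positivity
      · exact hdv _ _
    have l1 := lip_of_bdd hsep _ _ (abs_extend_le e h1 _ (by positivity) hh1)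
    have l2 := lip_of_bdd hsep _ _ (abs_extend_le e h2 _ (by positivity) hh2)
    obtain ⟨Ξ, hΞ⟩ := exists_functional _ _ (by positivity) l2
    simp only [hE0, sub_zero] at hΞ
    have hΞn := abs_le_of_lip Ξ (2 * (2 * Δ * R)) (by positivity)
      (fun p q => by rw [hΞ, hΞ]; exact l2 p q)
    have b1 : |Ξ (D v x)| ≤ 1 := by
      have := hs Ξ _ (by positivity) hΞn (fun p hp => by
        rw [hΞ]
        by_cases hpe : ∃ q, e q = p
        · obtain ⟨⟨v', o⟩, rfl⟩ := hpe
          rw [hE]
          cases o with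
          | none => simp [h2, dv, WO]
          | some y => simp only [h2]; rw [if_pos ⟨y, hsV v' y hp, rfl⟩]
        · exact hE' _ _ hpe) _ (hd v x)
      rwa [mul_one_div_cancel (by positivity)] at this
    let S₁ : Finset (Lab × I × Lab) := Finset.univ.image fun j => col σ lab (σ j x) j
    let S₂ : Finset (Lab × I × Lab) := Finset.univ.image fun j => col σ lab x j
    have hval : ∀ p, (Z x - Ξ) (dl P p) =
        2 * R * (Function.extend e (pf σ lab R k (Sum.inr S₁)) 0 p
          - Function.extend e (pf σ lab R k (Sum.inr S₂)) 0 p) + Function.extend e h1 0 p := by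
      intro p
      rw [sub_apply, hZ, hΞ]
      simp only [hΨ]
      by_cases hpe : ∃ q, e q = p
      · obtain ⟨⟨v', o⟩, rfl⟩ := hpe
        simp only [hE, pf, S₁, S₂, S.inv]
        rw [Finset.sum_image (g := fun j => col σ lab (σ j x) j)
            (fun a _ b _ h => (Prod.mk.inj (Prod.mk.inj h).2).1),
          Finset.sum_image (g := fun j => col σ lab x j)
            (fun a _ b _ h => (Prod.mk.inj (Prod.mk.inj h).2).1)]
        have h12 : h1 (v', o) + h2 (v', o) = dv o x := by
          simp only [h1, h2]; split_ifs <;> simp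
        have : h2 (v', o) = dv o x - h1 (v', o) := by linarith
        rw [this]
        simp only [dv]
        rw [← Finset.sum_sub_distrib, Finset.mul_sum, sub_sub_eq_add_sub, add_sub_right_comm,
          ← Finset.sum_sub_distrib]
        congr 1
        exact Finset.sum_congr rfl fun j _ => by ring
      · simp [hE' _ _ hpe]
    have b2 := abs_le_of_lip (Z x - Ξ) (12 * R) (by positivity) (fun p q => by
      rw [hval, hval]
      have a1 := hlip (Sum.inr S₁) p q
      have a2 := hlip (Sum.inr S₂) p q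
      have a3 := l1 p q
      rw [abs_le] at a1 a2 a3 ⊢
      have hR0 : (0 : ℝ) ≤ R := by positivity
      constructor <;> nlinarith [a1.1, a1.2, a2.1, a2.2, a3.1, a3.2]) (D v x)
    rw [sub_apply] at b2
    have b3 : 12 * (R : ℝ) * ‖D v x‖ ≤ 12 * R * (n * R) :=
      mul_le_mul_of_nonneg_left (hD v x) (by positivity)
    have b4 := abs_sub_abs_le_abs_sub (Z x (D v x)) (Ξ (D v x))
    rw [hΔ']
    nlinarith
  -- the short molecules
  have hedge : ∀ y i v, Ψ (y, i) (D (v + Pi.single (col σ lab y i) 1) (σ i y)) - Ψ (y, i) (D v y)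
      ≤ (n - R + 2) + (2 * n * R + R) * (if v (col σ lab y i) = Fin.last k then 1 else 0) := by
    intro y i v
    split_ifs with hv
    · have a1 := hΨn (y, i) (D (v + Pi.single (col σ lab y i) 1) (σ i y))
      have a2 := hΨn (y, i) (D v y)
      have a3 := hD (v + Pi.single (col σ lab y i) 1) (σ i y)
      have a4 := hD v y
      rw [abs_le] at a1 a2
      linarith [a1.2, a2.1]
    · set v' := v + Pi.single (col σ lab y i) 1 with hv'
      have hsh := shift_val v (col σ lab y i) hv
      rw [← hv'] at hsh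
      have d1 : ‖dl P (e (v', some (σ i y))) - dl P (e (v, some y))‖ ≤ 1 := by
        refine (norm_dl_sub _ _).trans (hdist _ _ _ le_rfl ?_)
        rintro (g | S')
        · simp only [pf, WO, hsh]
          have := S.WW_incr y i g.1 g.2
          convert this using 2
          ring
        · simp only [pf, hsh, Finset.sum_add_distrib, add_sub_cancel_left]
          rw [Finset.sum_ite_eq']
          split_ifs <;> simp
      have a1 := (hΨn (y, i) _).trans (hTγ _ _ d1)
      have a2 := (hΨn (y, i) _).trans (hA v')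
      have a3 := (hΨn (y, i) _).trans (hA v)
      have a4 : Ψ (y, i) (dl P (e (v', none))) - Ψ (y, i) (dl P (e (v, none))) = R := by
        rw [hΨ, hΨ, hE, hE]
        have : col σ lab (σ i y) i ≠ col σ lab y i := fun h => S.lab_ne i y (Prod.mk.inj h).1
        simp only [pf, WO, hsh, if_true, this, if_false]
        ring
      simp only [D, map_sub] at a1 a2 a3 ⊢
      rw [abs_le] at a1 a2 a3
      linarith [a1.2, a2.1, a3.2]
  set N : ℝ := (Fintype.card (Lab × I × Lab → Fin (k + 1)) : ℝ) with hN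
  have hNpos : 0 < N := by rw [hN]; exact_mod_cast Fintype.card_pos
  have hedge2 : ∀ y i, ∑ v, (Ψ (y, i) (D v (σ i y)) - Ψ (y, i) (D v y)) ≤ N * (n - R + 3) := by
    intro y i
    have e1 : ∑ v, Ψ (y, i) (D v (σ i y))
        = ∑ v, Ψ (y, i) (D (v + Pi.single (col σ lab y i) 1) (σ i y)) :=
      (Fintype.sum_equiv (Equiv.addRight (Pi.single (col σ lab y i) 1)) _ _ fun v => rfl).symm
    rw [Finset.sum_sub_distrib, e1, ← Finset.sum_sub_distrib]
    refine (Finset.sum_le_sum fun v _ => hedge y i v).trans ?_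
    rw [Finset.sum_add_distrib, ← Finset.mul_sum]
    have c1 := card_last k (col σ lab y i)
    rw [← hN] at c1
    set t := ∑ v : Lab × I × Lab → Fin (k + 1),
      (if v (col σ lab y i) = Fin.last k then (1 : ℝ) else 0) with ht
    have ht0 : 0 ≤ t := Finset.sum_nonneg fun v _ => by split_ifs <;> simp
    have hk' : (k : ℝ) = 2 * n * R + R := by rw [hk]; push_cast; ring
    rw [Finset.sum_const, Finset.card_univ, nsmul_eq_mul, ← hN, ← hk']
    nlinarith
  -- summation by parts
  have hsum : ∑ y ∈ Y, ∑ i, ∑ v, (Ψ (y, i) (D v (σ i y)) - Ψ (y, i) (D v y))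
      = ∑ y ∈ Y, ∑ v, Z y (D v y) := by
    simp only [hZ, Finset.sum_sub_distrib]
    congr 1
    · rw [Finset.sum_comm]
      conv_rhs => simp only [Finset.sum_comm (s := (Finset.univ : Finset (Lab × I × Lab → Fin (k + 1))))
        (t := (Finset.univ : Finset I))]; rw [Finset.sum_comm]
      refine Finset.sum_congr rfl fun i _ => ?_
      refine Finset.sum_nbij' (σ i) (σ i) (fun y hy => hYσ i y hy) (fun y hy => hYσ i y hy)
        (fun y _ => S.inv i y) (fun y _ => S.inv i y) fun y _ => ?_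
      simp only [S.inv]
    · exact Finset.sum_congr rfl fun y _ => Finset.sum_comm
  have hup : ∑ y ∈ Y, ∑ i, ∑ v, (Ψ (y, i) (D v (σ i y)) - Ψ (y, i) (D v y))
      ≤ Y.card * (Δ * (N * (n - R + 3))) := by
    rw [← nsmul_eq_mul]
    refine Finset.sum_le_card_nsmul _ _ _ fun y _ => ?_
    rw [hΔ, ← Finset.card_univ, ← nsmul_eq_mul]
    exact Finset.sum_le_card_nsmul _ _ _ fun i _ => hedge2 y i
  have hlow : -(Y.card * (N * Δ) + B.card * (N * (2 * Δ * (n * R))))
      ≤ ∑ y ∈ Y, ∑ v, Z y (D v y) := by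
    have a1 : ∀ y ∈ Y, -(N * Δ + if y ∈ B then N * (2 * Δ * (n * R)) else 0)
        ≤ ∑ v, Z y (D v y) := by
      intro y hy
      by_cases hyB : y ∈ B
      · rw [if_pos hyB]
        have := Finset.card_nsmul_le_sum Finset.univ (fun v => Z y (D v y))
          (-(2 * Δ * (n * R))) fun v _ => (abs_le.1 (hZbad y v)).1
        rw [Finset.card_univ, nsmul_eq_mul, ← hN] at this
        have : 0 ≤ N * Δ := by positivity
        linarith
      · rw [if_neg hyB]
        have := Finset.card_nsmul_le_sum Finset.univ (fun v => Z y (D v y))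
          (-Δ) fun v _ => (abs_le.1 (hZgood y hy hyB v)).1
        rw [Finset.card_univ, nsmul_eq_mul, ← hN] at this
        linarith
    refine le_trans ?_ (Finset.sum_le_sum a1)
    rw [Finset.sum_neg_distrib, Finset.sum_add_distrib, Finset.sum_const, nsmul_eq_mul,
      Finset.sum_ite_mem, Finset.sum_const, nsmul_eq_mul]
    have a2 : ((Y ∩ B).card : ℝ) ≤ B.card := by
      exact_mod_cast Finset.card_le_card Finset.inter_subset_right
    have a3 := mul_le_mul_of_nonneg_right a2
      (show 0 ≤ N * (2 * Δ * (n * R)) by positivity)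
    linarith
  rw [← hsum] at hlow
  have hY : (0 : ℝ) < Y.card := by exact_mod_cast hYne.card_pos
  have hB2 : (B.card : ℝ) * (2 * (n * R)) ≤ Y.card := by
    rw [one_div, ← div_eq_inv_mul, le_div_iff₀ (by positivity)] at hB
    have : (0 : ℝ) ≤ B.card := by positivity
    nlinarith
  have hfin := hlow.trans hup
  have hR' : (R : ℝ) = n + 6 := by rw [hR]; push_cast; ring
  have hNΔ : 0 < N * Δ := by positivity
  have a5 := mul_le_mul_of_nonneg_right hB2 hNΔ.le
  have a6 : 0 < (Y.card : ℝ) * (N * Δ) := by positivity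
  have a7 : (n : ℝ) - R + 3 = -3 := by rw [hR']; ring
  rw [a7] at hfin
  nlinarith

end Crest.Agent.R115
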