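import Mathlib

/-!
Words in involutions, reduced words, and finite sets with involutions on which short reduced
words act without fixed points.
-/

set_option autoImplicit false

namespace Crest.Agent.R115

/-- Apply the letters of a word from left to right. -/
def run {I V : Type*} (σ : I → V → V) (y : V) (w : List I) : V := w.foldl (fun z i => σ i z) y

/-- Reduced words: consecutive letters differ. -/
def Red {I : Type*} (w : List I) : Prop := w.IsChain (· ≠ ·)

section
variable {I V : Type*} {σ : I → V → V}

@[simp] lemma run_nil (y : V) : run σ y [] = y := rfl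
@[simp] lemma run_cons (y : V) (i : I) (w : List I) : run σ y (i :: w) = run σ (σ i y) w := rfl
lemma run_append (y : V) (w w' : List I) : run σ y (w ++ w') = run σ (run σ y w) w' := by
  simp [run, List.foldl_append]
lemma run_concat (y : V) (w : List I) (i : I) : run σ y (w ++ [i]) = σ i (run σ y w) := by
  simp [run_append]

lemma run_reverse (hσ : ∀ i y, σ i (σ i y) = y) (y : V) (w : List I) :
    run σ (run σ y w) w.reverse = y := by
  induction w generalizing y with
  | nil => rfl
  | cons i w ih => rw [List.reverse_cons, run_concat, run_cons, ih, hσ]

lemma red_nil : Red ([] : List I) := List.IsChain.nil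
lemma red_single (i : I) : Red [i] := List.isChain_singleton i
lemma red_cons_cons {i j : I} {w : List I} : Red (i :: j :: w) ↔ i ≠ j ∧ Red (j :: w) :=
  List.isChain_cons_cons
lemma Red.tail {i : I} {w : List I} (h : Red (i :: w)) : Red w := List.IsChain.tail h
lemma Red.reverse {w : List I} (h : Red w) : Red w.reverse := by
  unfold Red at *
  rw [List.isChain_reverse]
  exact h.imp fun _ _ h => h.symm
lemma Red.left {w w' : List I} (h : Red (w ++ w')) : Red w := List.IsChain.left_of_append h
lemma Red.right {w w' : List I} (h : Red (w ++ w')) : Red w' := List.IsChain.right_of_append h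
lemma red_append_cons_cons {w w' : List I} {i j : I} :
    Red (w ++ i :: j :: w') ↔ Red (w ++ [i]) ∧ i ≠ j ∧ Red (j :: w') :=
  List.isChain_append_cons_cons

lemma red_or_split (w : List I) : Red w ∨ ∃ w₁ i w₂, w = w₁ ++ i :: i :: w₂ := by
  induction w with
  | nil => left; exact red_nil
  | cons i w ih =>
    rcases ih with ih | ⟨w₁, j, w₂, rfl⟩
    · cases w with
      | nil => left; exact red_single i
      | cons j w =>
        by_cases hij : i = j
        · right; exact ⟨[], i, w, by simp [hij]⟩
        · left; exact red_cons_cons.2 ⟨hij, ih⟩
    · right; exact ⟨i :: w₁, j, w₂, rfl⟩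

/-- If short reduced words change the label, then labels are injective at short distance. -/
lemma eq_of_lab_eq {Lab : Type*} (hσ : ∀ i y, σ i (σ i y) = y) (lab : V → Lab) (m : ℕ)
    (hF : ∀ y w, Red w → w ≠ [] → w.length ≤ m → lab (run σ y w) ≠ lab y) :
    ∀ (n : ℕ) (w : List I) (y : V), w.length ≤ n → n ≤ m → lab (run σ y w) = lab y →
      run σ y w = y := by
  intro n
  induction n with
  | zero =>
    intro w y hw _ _
    have : w = [] := List.length_eq_zero_iff.1 (by omega)
    subst this; rfl
  | succ n ih =>
    intro w y hw hn h
    rcases red_or_split w with hr | ⟨w₁, i, w₂, rfl⟩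
    · by_cases hw0 : w = []
      · subst hw0; rfl
      · exact absurd h (hF y w hr hw0 (by omega))
    · have e : run σ y (w₁ ++ i :: i :: w₂) = run σ y (w₁ ++ w₂) := by
        simp [run_append, hσ]
      rw [e] at h ⊢
      refine ih _ y ?_ (by omega) h
      simp at hw ⊢; omega

end

section free
variable (I : Type) [DecidableEq I]

/-- Words of length at most `L`. -/
def Wd (L : ℕ) : Type := {l : List I // l.length ≤ L}

instance [Finite I] (L : ℕ) : Finite (Wd I L) := (List.finite_length_le I L).to_subtype

variable {I}

/-- The involution on words: add or remove the first letter. -/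
def flipL (L : ℕ) (k : I) (l : List I) : List I :=
  if l.head? = some k then (if l.tail.head? = some k then l else l.tail)
  else (if l.length < L then k :: l else l)

lemma flipL_length (L : ℕ) (k : I) (l : List I) (h : l.length ≤ L) : (flipL L k l).length ≤ L := by
  unfold flipL
  split_ifs
  · exact h
  · simp; omega
  · simp; omega
  · exact h

lemma flipL_flipL (L : ℕ) (k : I) (l : List I) (h : l.length ≤ L) :
    flipL L k (flipL L k l) = l := by
  cases l with
  | nil =>
    by_cases hL : 0 < L <;> simp [flipL, hL]
  | cons i l =>
    by_cases hi : i = k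
    · subst hi
      by_cases h2 : l.head? = some i
      · simp [flipL, h2]
      · have : l.length < L := by simp at h; omega
        simp [flipL, h2, this]
    · by_cases h2 : (i :: l).length < L
      · simp only [flipL, List.head?_cons, Option.some.injEq, hi, if_false, h2, if_true,
          List.tail_cons]
      · simp only [flipL, List.head?_cons, Option.some.injEq, hi, if_false, h2]

/-- The involution as a map on short words. -/
def flipW (L : ℕ) (k : I) (l : Wd I L) : Wd I L := ⟨flipL L k l.1, flipL_length L k l.1 l.2⟩

lemma flipW_invol (L : ℕ) (k : I) : Function.Involutive (flipW L k) :=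
  fun l => Subtype.ext (flipL_flipL L k l.1 l.2)

lemma run_flipW (L : ℕ) (w : List I) (hw : Red w) (hL : w.length ≤ L) :
    (run (flipW L) ⟨[], by simp⟩ w).1 = w.reverse := by
  induction w using List.reverseRecOn with
  | nil => rfl
  | append_singleton w i ih =>
    rw [run_concat]
    have hlen : w.length < L := by simp at hL; omega
    have ih := ih hw.left hlen.le
    change flipL L i (run (flipW L) ⟨[], by simp⟩ w).1 = _
    rw [ih]
    have : w.reverse.head? ≠ some i := by
      rcases List.eq_nil_or_concat w with rfl | ⟨w', j, rfl⟩
      · simp
      · rw [List.concat_eq_append, List.append_assoc] at hw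
        have := (red_append_cons_cons.1 hw).2.1
        simpa using this
    simp [flipL, hlen]
    intro h
    simp at this
    exact absurd h this

/-- There is a finite nonempty set with involutions on which reduced words of length at most `L`
act without fixed points. -/
theorem exists_free (I : Type) [Finite I] (L : ℕ) :
    ∃ (X : Type) (_ : Fintype X) (_ : Nonempty X) (ρ : I → X → X), (∀ k g, ρ k (ρ k g) = g) ∧
      ∀ g w, Red w → w ≠ [] → w.length ≤ L → run ρ g w ≠ g := by
  classical
  have := Fintype.ofFinite (Wd I L)
  let ρ : I → Equiv.Perm (Wd I L) → Equiv.Perm (Wd I L) :=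
    fun k g => (flipW_invol L k).toPerm * g
  have hρ : ∀ k g l, ρ k g l = flipW L k (g l) := fun _ _ _ => rfl
  have hrun : ∀ (w : List I) g l, run ρ g w l = run (flipW L) (g l) w := by
    intro w
    induction w with
    | nil => intro g l; rfl
    | cons i w ih => intro g l; rw [run_cons, run_cons, ih, hρ]
  refine ⟨Equiv.Perm (Wd I L), inferInstance, inferInstance, ρ, fun k g => ?_,
    fun g w hw h0 hL h => ?_⟩
  · refine Equiv.ext fun l => ?_
    rw [hρ, hρ]
    exact flipW_invol L k _
  · have h1 := hrun w g (g.symm ⟨[], by simp⟩)
    rw [h, Equiv.apply_symm_apply] at h1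
    have h2 := run_flipW L w hw hL
    rw [← h1] at h2
    exact h0 (by simpa using h2.symm)

end free

end Crest.Agent.R115
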